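import Mathlib

/-!
# P036: Heilbronn's triangle problem, definitions

The plane is `Fin 2 → ℝ`; `x 0` and `x 1` are the two coordinates of `x`.
-/

namespace Vale.Agent.P036

open MeasureTheory

/-- The area of the triangle with vertices `p`, `q`, `r`: half the absolute value of
the determinant of `q - p` and `r - p`. -/
noncomputable def area (p q r : Fin 2 → ℝ) : ℝ :=
  |(q 0 - p 0) * (r 1 - p 1) - (q 1 - p 1) * (r 0 - p 0)| / 2

/-- The closed unit square. -/
def unitSquare : Set (Fin 2 → ℝ) := {x | 0 ≤ x 0 ∧ x 0 ≤ 1 ∧ 0 ≤ x 1 ∧ x 1 ≤ 1}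

/-- The closed half-plane `a 0 * x 0 + a 1 * x 1 ≤ c`. -/
def halfPlane (a : Fin 2 → ℝ) (c : ℝ) : Set (Fin 2 → ℝ) :=
  {x | a 0 * x 0 + a 1 * x 1 ≤ c}

open Classical in
/-- The half-plane discrepancy of the finite set `P` (with respect to Lebesgue measure on
the unit square) is at most `D`: every closed half-plane `H` contains `|P| * vol(H ∩ square)`
points of `P`, up to an error of at most `D`. -/
def HasDisc (P : Finset (Fin 2 → ℝ)) (D : ℝ) : Prop :=
  ∀ (a : Fin 2 → ℝ) (c : ℝ),
    |((P.filter (fun x => x ∈ halfPlane a c)).card : ℝ) -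
      (P.card : ℝ) * (volume (halfPlane a c ∩ unitSquare)).toReal| ≤ D

end Vale.Agent.P036
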