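import Vale.Agent.P036.Defs

namespace Vale.Agent.P036

open MeasureTheory

/-! ### Pigeonhole -/

theorem cell_close {k : ℕ} (hk : 0 < k) {x y : ℝ} (hx0 : 0 ≤ x) (hx1 : x ≤ 1) (hy0 : 0 ≤ y)
    (hy1 : y ≤ 1) (h : min ⌊(k : ℝ) * x⌋₊ (k - 1) = min ⌊(k : ℝ) * y⌋₊ (k - 1)) :
    |x - y| ≤ 1 / k := by
  have hk' : (0 : ℝ) < k := by exact_mod_cast hk
  have key : ∀ z : ℝ, 0 ≤ z → z ≤ 1 →
      ((min ⌊(k : ℝ) * z⌋₊ (k - 1) : ℕ) : ℝ) ≤ k * z ∧
      (k : ℝ) * z ≤ ((min ⌊(k : ℝ) * z⌋₊ (k - 1) : ℕ) : ℝ) + 1 := by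
    intro z hz0 hz1
    have hkz : 0 ≤ (k : ℝ) * z := by positivity
    refine ⟨?_, ?_⟩
    · calc ((min ⌊(k : ℝ) * z⌋₊ (k - 1) : ℕ) : ℝ) ≤ ((⌊(k : ℝ) * z⌋₊ : ℕ) : ℝ) := by
            exact_mod_cast min_le_left _ _
        _ ≤ k * z := Nat.floor_le hkz
    · rcases le_total ⌊(k : ℝ) * z⌋₊ (k - 1) with h1 | h1
      · rw [min_eq_left h1]
        exact (Nat.lt_floor_add_one _).le
      · rw [min_eq_right h1]
        have : ((k - 1 : ℕ) : ℝ) + 1 = k := by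
          have : (k - 1) + 1 = k := by omega
          exact_mod_cast this
        rw [this]
        nlinarith
  obtain ⟨a1, a2⟩ := key x hx0 hx1
  obtain ⟨b1, b2⟩ := key y hy0 hy1
  rw [h] at a1 a2
  rw [le_div_iff₀ hk']
  have e : |x - y| * k = |(x - y) * k| := by rw [abs_mul, abs_of_pos hk']
  rw [e, abs_le]
  constructor <;> nlinarith

theorem exists_close (S : Finset (Fin 2 → ℝ)) (hS : ∀ x ∈ S, x ∈ unitSquare)
    (h2 : 2 ≤ S.card) :
    ∃ p ∈ S, ∃ q ∈ S, p ≠ q ∧ |q 0 - p 0| ≤ 2 / Real.sqrt S.card ∧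
      |q 1 - p 1| ≤ 2 / Real.sqrt S.card := by
  set m := S.card with hm
  set k := Nat.sqrt (m - 1) with hk
  have hk0 : 0 < k := by
    rw [hk, Nat.sqrt_pos]; omega
  have hkk : k * k ≤ m - 1 := Nat.sqrt_le (m - 1)
  have hkk2 : m - 1 < (k + 1) * (k + 1) := Nat.lt_succ_sqrt (m - 1)
  have hcard : (Finset.range k ×ˢ Finset.range k).card < S.card := by
    rw [Finset.card_product, Finset.card_range]; omega
  obtain ⟨p, hp, q, hq, hpq, hf⟩ := Finset.exists_ne_map_eq_of_card_lt_of_maps_to hcard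
    (f := fun x => (min ⌊(k : ℝ) * x 0⌋₊ (k - 1), min ⌊(k : ℝ) * x 1⌋₊ (k - 1))) (by
      intro x hx
      have h1 := min_le_right ⌊(k : ℝ) * x 0⌋₊ (k - 1)
      have h2 := min_le_right ⌊(k : ℝ) * x 1⌋₊ (k - 1)
      simp only [Finset.coe_product, Finset.coe_range, Set.mem_prod, Set.mem_Iio]
      omega)
  have hf1 := congrArg Prod.fst hf
  have hf2 := congrArg Prod.snd hf
  simp only at hf1 hf2
  obtain ⟨p1, p2, p3, p4⟩ := hS p hp
  obtain ⟨q1, q2, q3, q4⟩ := hS q hq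
  have hkm : (1 : ℝ) / k ≤ 2 / Real.sqrt m := by
    have hk' : (0 : ℝ) < k := by exact_mod_cast hk0
    have hm' : (0 : ℝ) < m := by
      have : 0 < m := by omega
      exact_mod_cast this
    rw [div_le_div_iff₀ hk' (Real.sqrt_pos.mpr hm'), one_mul]
    rw [Real.sqrt_le_left (by positivity)]
    have h1 : (m : ℝ) ≤ (k + 1) * (k + 1) := by
      have : m ≤ (k + 1) * (k + 1) := by omega
      exact_mod_cast this
    have h2 : (1 : ℝ) ≤ k := by exact_mod_cast hk0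
    nlinarith
  exact ⟨p, hp, q, hq, hpq, (cell_close hk0 q1 q2 p1 p2 hf1.symm).trans hkm,
    (cell_close hk0 q3 q4 p3 p4 hf2.symm).trans hkm⟩

/-! ### Volumes -/

theorem measurable_unitSquare : MeasurableSet unitSquare := by
  have : unitSquare = Set.Icc (0 : Fin 2 → ℝ) 1 := by
    ext x
    simp only [unitSquare, Set.mem_ofPred_eq, Set.mem_Icc, Pi.le_def, Fin.forall_fin_two,
      Pi.zero_apply, Pi.one_apply]
    tauto
  rw [this]
  exact measurableSet_Icc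

theorem measurable_halfPlane (a : Fin 2 → ℝ) (c : ℝ) : MeasurableSet (halfPlane a c) := by
  unfold halfPlane
  exact measurableSet_le (by fun_prop) measurable_const

theorem volume_unitSquare_lt_top (s : Set (Fin 2 → ℝ)) : volume (s ∩ unitSquare) ≠ ⊤ := by
  have h : s ∩ unitSquare ⊆ Set.Icc (0 : Fin 2 → ℝ) 1 := by
    rintro x ⟨_, h1, h2, h3, h4⟩
    simp only [Set.mem_Icc, Pi.le_def, Fin.forall_fin_two, Pi.zero_apply, Pi.one_apply]
    exact ⟨⟨h1, h3⟩, ⟨h2, h4⟩⟩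
  exact ne_top_of_le_ne_top (by
    rw [Real.volume_Icc_pi]; exact ENNReal.prod_ne_top (fun i _ => ENNReal.ofReal_ne_top))
    (measure_mono h)

theorem volume_le_box (s : Set (Fin 2 → ℝ)) (u v : Fin 2 → ℝ) (huv : u ≤ v)
    (h : s ⊆ Set.Icc u v) :
    (volume s).toReal ≤ (v 0 - u 0) * (v 1 - u 1) := by
  have h1 := measure_mono (μ := volume) h
  have h2 : (volume (Set.Icc u v)).toReal = (v 0 - u 0) * (v 1 - u 1) := by
    rw [Real.volume_Icc_pi_toReal huv, Fin.prod_univ_two]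
  rw [← h2]
  refine ENNReal.toReal_mono ?_ h1
  rw [Real.volume_Icc_pi]; exact ENNReal.prod_ne_top (fun i _ => ENNReal.ofReal_ne_top)

/-- The rotated rectangle has the right area. -/
theorem volume_rot (p : Fin 2 → ℝ) (c s : ℝ) (hcs : c ^ 2 + s ^ 2 = 1) (w : ℝ) (hw : 0 ≤ w) :
    (volume {x : Fin 2 → ℝ |
      (-(1 / 16) ≤ c * (x 0 - p 0) + s * (x 1 - p 1) ∧
        c * (x 0 - p 0) + s * (x 1 - p 1) ≤ 1 / 16) ∧
      (-w < c * (x 1 - p 1) - s * (x 0 - p 0) ∧ c * (x 1 - p 1) - s * (x 0 - p 0) ≤ w)}).toReal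
    = w / 4 := by
  let f : (Fin 2 → ℝ) →ₗ[ℝ] (Fin 2 → ℝ) := Matrix.toLin' !![c, s; -s, c]
  have hdet : LinearMap.det f = 1 := by
    rw [LinearMap.det_toLin', Matrix.det_fin_two_of]
    nlinarith
  let B : Set (Fin 2 → ℝ) := Set.pi Set.univ ![Set.Icc (-(1 / 16)) (1 / 16 : ℝ), Set.Ioc (-w) w]
  have hset : {x : Fin 2 → ℝ |
      (-(1 / 16) ≤ c * (x 0 - p 0) + s * (x 1 - p 1) ∧
        c * (x 0 - p 0) + s * (x 1 - p 1) ≤ 1 / 16) ∧
      (-w < c * (x 1 - p 1) - s * (x 0 - p 0) ∧ c * (x 1 - p 1) - s * (x 0 - p 0) ≤ w)}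
      = (fun x => x + (-p)) ⁻¹' (f ⁻¹' B) := by
    ext x
    simp only [Set.mem_ofPred_eq, Set.mem_preimage, B, Set.mem_pi, Set.mem_univ, true_imp_iff,
      Fin.forall_fin_two, Matrix.cons_val_zero, Matrix.cons_val_one, Set.mem_Icc, Set.mem_Ioc]
    have e0 : f (x + -p) 0 = c * (x 0 - p 0) + s * (x 1 - p 1) := by
      simp [f, Matrix.toLin'_apply, Matrix.mulVec, dotProduct, Fin.sum_univ_two]
      ring
    have e1 : f (x + -p) 1 = c * (x 1 - p 1) - s * (x 0 - p 0) := by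
      simp [f, Matrix.toLin'_apply, Matrix.mulVec, dotProduct, Fin.sum_univ_two]
      ring
    rw [e0, e1]
  rw [hset, measure_preimage_add_right, Measure.addHaar_preimage_linearMap _ (by rw [hdet]; simp),
    hdet]
  simp only [B]
  rw [volume_pi_pi, Fin.prod_univ_two]
  simp only [Matrix.cons_val_zero, Matrix.cons_val_one, Real.volume_Icc, Real.volume_Ioc]
  rw [ENNReal.toReal_mul, ENNReal.toReal_mul, ENNReal.toReal_ofReal (by positivity),
    ENNReal.toReal_ofReal (by norm_num), ENNReal.toReal_ofReal (by linarith)]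
  norm_num
  ring

end Vale.Agent.P036
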