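import Vale.Agent.P036.Disc

namespace Vale.Agent.P036

open MeasureTheory

/-- The area is at most the side times the bound for the last vertex. -/
theorem area_le_of_close {p q r : Fin 2 → ℝ} {h : ℝ} (hp : p ∈ unitSquare) (hr : r ∈ unitSquare)
    (h0 : |q 0 - p 0| ≤ h) (h1 : |q 1 - p 1| ≤ h) : area p q r ≤ h := by
  obtain ⟨p1, p2, p3, p4⟩ := hp
  obtain ⟨r1, r2, r3, r4⟩ := hr
  have hh : 0 ≤ h := (abs_nonneg _).trans h0
  have a0 : |r 0 - p 0| ≤ 1 := by rw [abs_le]; constructor <;> linarith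
  have a1 : |r 1 - p 1| ≤ 1 := by rw [abs_le]; constructor <;> linarith
  unfold area
  have b0 : |(q 0 - p 0) * (r 1 - p 1)| ≤ h * 1 := by
    rw [abs_mul]; exact mul_le_mul h0 a1 (abs_nonneg _) hh
  have b1 : |(q 1 - p 1) * (r 0 - p 0)| ≤ h * 1 := by
    rw [abs_mul]; exact mul_le_mul h1 a0 (abs_nonneg _) hh
  have := abs_sub ((q 0 - p 0) * (r 1 - p 1)) ((q 1 - p 1) * (r 0 - p 0))
  linarith

/-- A half-plane whose trace on the square lies in a box has few points. -/
theorem card_halfPlane_le {P : Finset (Fin 2 → ℝ)} {D : ℝ} (hD : HasDisc P D)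
    (a : Fin 2 → ℝ) (c : ℝ) (u v : Fin 2 → ℝ) (huv : u ≤ v)
    (hb : halfPlane a c ∩ unitSquare ⊆ Set.Icc u v)
    (Q : Finset (Fin 2 → ℝ)) (hQ : ∀ x ∈ Q, x ∈ P ∧ x ∈ halfPlane a c) :
    (Q.card : ℝ) ≤ P.card * ((v 0 - u 0) * (v 1 - u 1)) + D := by
  classical
  have h1 := hD a c
  have h2 := volume_le_box _ u v huv hb
  have h3 : (Q.card : ℝ) ≤ ((P.filter (fun x => x ∈ halfPlane a c)).card : ℝ) := by
    have : Q ⊆ P.filter (fun x => x ∈ halfPlane a c) := by
      intro x hx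
      rw [Finset.mem_filter]
      exact hQ x hx
    exact_mod_cast Finset.card_le_card this
  have h4 : (P.card : ℝ) * (volume (halfPlane a c ∩ unitSquare)).toReal
      ≤ P.card * ((v 0 - u 0) * (v 1 - u 1)) :=
    mul_le_mul_of_nonneg_left h2 (Nat.cast_nonneg _)
  have h5 := (abs_le.mp h1).2
  have h6 : ((P.filter (fun x => x ∈ halfPlane a c)).card : ℝ)
      ≤ D + (P.card : ℝ) * (volume (halfPlane a c ∩ unitSquare)).toReal := by
    convert sub_le_iff_le_add.mp h5
  linarith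

/-- The central square `[1/8, 7/8]²` contains many points. -/
theorem central {P : Finset (Fin 2 → ℝ)} {D : ℝ}
    (hD : HasDisc P D) :
    ∃ S : Finset (Fin 2 → ℝ), S ⊆ P ∧
      (∀ x ∈ S, 1 / 8 ≤ x 0 ∧ x 0 ≤ 7 / 8 ∧ 1 / 8 ≤ x 1 ∧ x 1 ≤ 7 / 8) ∧
      (P.card : ℝ) / 2 - 4 * D ≤ S.card := by
  classical
  let S := P.filter (fun x => 1 / 8 ≤ x 0 ∧ x 0 ≤ 7 / 8 ∧ 1 / 8 ≤ x 1 ∧ x 1 ≤ 7 / 8)
  let Q1 := P.filter (fun x => x 0 ≤ 1 / 8)
  let Q2 := P.filter (fun x => 7 / 8 ≤ x 0)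
  let Q3 := P.filter (fun x => x 1 ≤ 1 / 8)
  let Q4 := P.filter (fun x => 7 / 8 ≤ x 1)
  have hcov : P ⊆ S ∪ (Q1 ∪ (Q2 ∪ (Q3 ∪ Q4))) := by
    intro x hx
    simp only [S, Q1, Q2, Q3, Q4, Finset.mem_union, Finset.mem_filter]
    by_cases h1 : x 0 ≤ 1 / 8
    · exact Or.inr (Or.inl ⟨hx, h1⟩)
    by_cases h2 : 7 / 8 ≤ x 0
    · exact Or.inr (Or.inr (Or.inl ⟨hx, h2⟩))
    by_cases h3 : x 1 ≤ 1 / 8
    · exact Or.inr (Or.inr (Or.inr (Or.inl ⟨hx, h3⟩)))
    by_cases h4 : 7 / 8 ≤ x 1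
    · exact Or.inr (Or.inr (Or.inr (Or.inr ⟨hx, h4⟩)))
    push Not at h1 h2 h3 h4
    exact Or.inl ⟨hx, h1.le, h2.le, h3.le, h4.le⟩
  have hc : P.card ≤ S.card + (Q1.card + (Q2.card + (Q3.card + Q4.card))) := by
    refine (Finset.card_le_card hcov).trans ?_
    refine (Finset.card_union_le _ _).trans (Nat.add_le_add_left ?_ _)
    refine (Finset.card_union_le _ _).trans (Nat.add_le_add_left ?_ _)
    refine (Finset.card_union_le _ _).trans (Nat.add_le_add_left ?_ _)
    exact Finset.card_union_le _ _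
  have hc' : (P.card : ℝ) ≤ S.card + (Q1.card + (Q2.card + (Q3.card + Q4.card))) := by
    exact_mod_cast hc
  have b1 : (Q1.card : ℝ) ≤ P.card * ((1 / 8 - 0) * (1 - 0)) + D := by
    have := card_halfPlane_le hD ![1, 0] (1 / 8) ![0, 0] ![1 / 8, 1]
      (by simp only [Pi.le_def, Fin.forall_fin_two]; norm_num)
      (by
        rintro x ⟨hx, h1, h2, h3, h4⟩
        simp only [halfPlane, Set.mem_ofPred_eq, Matrix.cons_val_zero, Matrix.cons_val_one] at hx
        simp only [Set.mem_Icc, Pi.le_def, Fin.forall_fin_two, Matrix.cons_val_zero,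
          Matrix.cons_val_one]
        refine ⟨⟨?_, ?_⟩, ⟨?_, ?_⟩⟩ <;> linarith) Q1 (by
        intro x hx
        simp only [Q1, Finset.mem_filter] at hx
        refine ⟨hx.1, ?_⟩
        simp only [halfPlane, Set.mem_ofPred_eq, Matrix.cons_val_zero, Matrix.cons_val_one]
        linarith [hx.2])
    simpa using this
  have b2 : (Q2.card : ℝ) ≤ P.card * ((1 - 7 / 8) * (1 - 0)) + D := by
    have := card_halfPlane_le hD ![-1, 0] (-(7 / 8)) ![7 / 8, 0] ![1, 1]
      (by simp only [Pi.le_def, Fin.forall_fin_two]; norm_num)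
      (by
        rintro x ⟨hx, h1, h2, h3, h4⟩
        simp only [halfPlane, Set.mem_ofPred_eq, Matrix.cons_val_zero, Matrix.cons_val_one] at hx
        simp only [Set.mem_Icc, Pi.le_def, Fin.forall_fin_two, Matrix.cons_val_zero,
          Matrix.cons_val_one]
        refine ⟨⟨?_, ?_⟩, ⟨?_, ?_⟩⟩ <;> linarith) Q2 (by
        intro x hx
        simp only [Q2, Finset.mem_filter] at hx
        refine ⟨hx.1, ?_⟩
        simp only [halfPlane, Set.mem_ofPred_eq, Matrix.cons_val_zero, Matrix.cons_val_one]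
        linarith [hx.2])
    simpa using this
  have b3 : (Q3.card : ℝ) ≤ P.card * ((1 - 0) * (1 / 8 - 0)) + D := by
    have := card_halfPlane_le hD ![0, 1] (1 / 8) ![0, 0] ![1, 1 / 8]
      (by simp only [Pi.le_def, Fin.forall_fin_two]; norm_num)
      (by
        rintro x ⟨hx, h1, h2, h3, h4⟩
        simp only [halfPlane, Set.mem_ofPred_eq, Matrix.cons_val_zero, Matrix.cons_val_one] at hx
        simp only [Set.mem_Icc, Pi.le_def, Fin.forall_fin_two, Matrix.cons_val_zero,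
          Matrix.cons_val_one]
        refine ⟨⟨?_, ?_⟩, ⟨?_, ?_⟩⟩ <;> linarith) Q3 (by
        intro x hx
        simp only [Q3, Finset.mem_filter] at hx
        refine ⟨hx.1, ?_⟩
        simp only [halfPlane, Set.mem_ofPred_eq, Matrix.cons_val_zero, Matrix.cons_val_one]
        linarith [hx.2])
    simpa using this
  have b4 : (Q4.card : ℝ) ≤ P.card * ((1 - 0) * (1 - 7 / 8)) + D := by
    have := card_halfPlane_le hD ![0, -1] (-(7 / 8)) ![0, 7 / 8] ![1, 1]
      (by simp only [Pi.le_def, Fin.forall_fin_two]; norm_num)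
      (by
        rintro x ⟨hx, h1, h2, h3, h4⟩
        simp only [halfPlane, Set.mem_ofPred_eq, Matrix.cons_val_zero, Matrix.cons_val_one] at hx
        simp only [Set.mem_Icc, Pi.le_def, Fin.forall_fin_two, Matrix.cons_val_zero,
          Matrix.cons_val_one]
        refine ⟨⟨?_, ?_⟩, ⟨?_, ?_⟩⟩ <;> linarith) Q4 (by
        intro x hx
        simp only [Q4, Finset.mem_filter] at hx
        refine ⟨hx.1, ?_⟩
        simp only [halfPlane, Set.mem_ofPred_eq, Matrix.cons_val_zero, Matrix.cons_val_one]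
        linarith [hx.2])
    simpa using this
  refine ⟨S, Finset.filter_subset _ _, fun x hx => (Finset.mem_filter.mp hx).2, ?_⟩
  linarith

/-- The strip of half-width `w` around a line through a central point has many points. -/
theorem strip {P : Finset (Fin 2 → ℝ)} {D : ℝ} (hD : HasDisc P D) (p : Fin 2 → ℝ)
    (hp : 1 / 8 ≤ p 0 ∧ p 0 ≤ 7 / 8 ∧ 1 / 8 ≤ p 1 ∧ p 1 ≤ 7 / 8)
    (c s : ℝ) (hcs : c ^ 2 + s ^ 2 = 1) (w : ℝ) (hw : 0 ≤ w) (hw1 : w ≤ 1 / 16) :
    ∃ T : Finset (Fin 2 → ℝ), T ⊆ P ∧ (∀ x ∈ T, |c * (x 1 - p 1) - s * (x 0 - p 0)| ≤ w) ∧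
      (P.card : ℝ) * (w / 4) - 2 * D ≤ T.card := by
  classical
  set a : Fin 2 → ℝ := ![-s, c] with ha
  set d := c * p 1 - s * p 0 with hd
  have hmem : ∀ (x : Fin 2 → ℝ) (t : ℝ),
      x ∈ halfPlane a (d + t) ↔ c * (x 1 - p 1) - s * (x 0 - p 0) ≤ t := by
    intro x t
    simp only [halfPlane, Set.mem_ofPred_eq, ha, Matrix.cons_val_zero, Matrix.cons_val_one, hd]
    constructor <;> intro h <;> linarith
  let H1 := halfPlane a (d + w)
  let H2 := halfPlane a (d + -w)
  have hsub : H2 ⊆ H1 := by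
    intro x hx
    rw [hmem] at hx ⊢
    linarith
  let R : Set (Fin 2 → ℝ) := {x : Fin 2 → ℝ |
      (-(1 / 16) ≤ c * (x 0 - p 0) + s * (x 1 - p 1) ∧
        c * (x 0 - p 0) + s * (x 1 - p 1) ≤ 1 / 16) ∧
      (-w < c * (x 1 - p 1) - s * (x 0 - p 0) ∧ c * (x 1 - p 1) - s * (x 0 - p 0) ≤ w)}
  have hc1 : |c| ≤ 1 := by rw [abs_le]; constructor <;> nlinarith [sq_nonneg s]
  have hs1 : |s| ≤ 1 := by rw [abs_le]; constructor <;> nlinarith [sq_nonneg c]
  have hR : R ⊆ (H1 \ H2) ∩ unitSquare := by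
    rintro x ⟨⟨h1, h2⟩, h3, h4⟩
    refine ⟨⟨(hmem x w).mpr h4, fun h => ?_⟩, ?_⟩
    · have := (hmem x (-w)).mp h
      linarith
    · set A := c * (x 0 - p 0) + s * (x 1 - p 1) with hA
      set B := c * (x 1 - p 1) - s * (x 0 - p 0) with hB
      have hA' : |A| ≤ 1 / 16 := abs_le.mpr ⟨h1, h2⟩
      have hB' : |B| ≤ 1 / 16 := abs_le.mpr ⟨by linarith, by linarith⟩
      have e0 : x 0 - p 0 = c * A - s * B := by
        have : c * A - s * B = (c ^ 2 + s ^ 2) * (x 0 - p 0) := by rw [hA, hB]; ring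
        rw [this, hcs, one_mul]
      have e1 : x 1 - p 1 = s * A + c * B := by
        have : s * A + c * B = (c ^ 2 + s ^ 2) * (x 1 - p 1) := by rw [hA, hB]; ring
        rw [this, hcs, one_mul]
      have f1 : |c * A| ≤ 1 * (1 / 16) := by
        rw [abs_mul]; exact mul_le_mul hc1 hA' (abs_nonneg _) (by norm_num)
      have f2 : |s * B| ≤ 1 * (1 / 16) := by
        rw [abs_mul]; exact mul_le_mul hs1 hB' (abs_nonneg _) (by norm_num)
      have f3 : |s * A| ≤ 1 * (1 / 16) := by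
        rw [abs_mul]; exact mul_le_mul hs1 hA' (abs_nonneg _) (by norm_num)
      have f4 : |c * B| ≤ 1 * (1 / 16) := by
        rw [abs_mul]; exact mul_le_mul hc1 hB' (abs_nonneg _) (by norm_num)
      rw [abs_le] at f1 f2 f3 f4
      obtain ⟨g1, g2, g3, g4⟩ := hp
      refine ⟨?_, ?_, ?_, ?_⟩ <;> linarith [f1.1, f1.2, f2.1, f2.2, f3.1, f3.2, f4.1, f4.2]
  have hRvol : (volume R).toReal = w / 4 := volume_rot p c s hcs w hw
  have hdiff : (volume (H1 ∩ unitSquare)).toReal - (volume (H2 ∩ unitSquare)).toReal ≥ w / 4 := by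
    have hm : volume (H2 ∩ unitSquare) + volume ((H1 \ H2) ∩ unitSquare)
        ≤ volume (H1 ∩ unitSquare) := by
      rw [← measure_union]
      · refine measure_mono ?_
        rintro x (⟨h1, h2⟩ | ⟨⟨h1, _⟩, h2⟩)
        · exact ⟨hsub h1, h2⟩
        · exact ⟨h1, h2⟩
      · rw [Set.disjoint_left]
        rintro x ⟨h1, _⟩ ⟨⟨_, h3⟩, _⟩
        exact h3 h1
      · exact ((measurable_halfPlane _ _).diff (measurable_halfPlane _ _)).inter
          measurable_unitSquare
    have h2 := ENNReal.toReal_mono (volume_unitSquare_lt_top H1) hm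
    rw [ENNReal.toReal_add (volume_unitSquare_lt_top _) (volume_unitSquare_lt_top _)] at h2
    have h3 := ENNReal.toReal_mono (volume_unitSquare_lt_top (H1 \ H2)) (measure_mono hR)
    rw [hRvol] at h3
    linarith
  have k1 := (abs_le.mp (hD a (d + w))).1
  have k2 := (abs_le.mp (hD a (d + -w))).2
  let F1 := P.filter (fun x => x ∈ H1)
  let F2 := P.filter (fun x => x ∈ H2)
  have k1' : -D ≤ (F1.card : ℝ) - P.card * (volume (H1 ∩ unitSquare)).toReal := by
    convert k1
  have k2' : (F2.card : ℝ) - P.card * (volume (H2 ∩ unitSquare)).toReal ≤ D := by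
    convert k2
  have hF : F2 ⊆ F1 := by
    intro x hx
    rw [Finset.mem_filter] at hx ⊢
    exact ⟨hx.1, hsub hx.2⟩
  refine ⟨F1 \ F2, (Finset.sdiff_subset).trans (Finset.filter_subset _ _), ?_, ?_⟩
  · intro x hx
    rw [Finset.mem_sdiff, Finset.mem_filter, Finset.mem_filter] at hx
    obtain ⟨⟨hxP, h1⟩, h2⟩ := hx
    have h3 := (hmem x w).mp h1
    have h4 : ¬ (x ∈ H2) := fun h => h2 ⟨hxP, h⟩
    have h5 : -w < c * (x 1 - p 1) - s * (x 0 - p 0) := by
      by_contra hcon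
      push Not at hcon
      exact h4 ((hmem x (-w)).mpr hcon)
    exact abs_le.mpr ⟨h5.le, h3⟩
  · have h1 : ((F1 \ F2).card : ℝ) = F1.card - F2.card := by
      rw [Finset.card_sdiff_of_subset hF, Nat.cast_sub (Finset.card_le_card hF)]
    rw [h1]
    have hn : (0 : ℝ) ≤ P.card := Nat.cast_nonneg _
    nlinarith

/-- The main estimate, with the constant `640`. -/
theorem main (P : Finset (Fin 2 → ℝ)) (hP : ∀ x ∈ P, x ∈ unitSquare) (h3 : 3 ≤ P.card)
    (D : ℝ) (hD1 : 1 ≤ D) (hD : HasDisc P D) :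
    ∃ p ∈ P, ∃ q ∈ P, ∃ r ∈ P, p ≠ q ∧ p ≠ r ∧ q ≠ r ∧
      area p q r ≤ 640 * D / (P.card * Real.sqrt P.card) := by
  classical
  have hn : (0 : ℝ) < P.card := by
    have : 0 < P.card := by omega
    exact_mod_cast this
  have hsn : 0 < Real.sqrt P.card := Real.sqrt_pos.mpr hn
  have third : ∀ (T : Finset (Fin 2 → ℝ)) (p q : Fin 2 → ℝ), 3 ≤ T.card →
      ∃ r ∈ T, p ≠ r ∧ q ≠ r := by
    intro T p q hT
    have h1 : ({p, q} : Finset (Fin 2 → ℝ)).card < T.card :=
      lt_of_le_of_lt (Finset.card_le_two) (by omega)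
    obtain ⟨r, hr, hr2⟩ := Finset.exists_mem_notMem_of_card_lt_card h1
    refine ⟨r, hr, ?_, ?_⟩
    · rintro rfl; exact hr2 (by simp)
    · rintro rfl; exact hr2 (by simp)
  rcases lt_or_ge ((P.card : ℝ) / 320) D with hbig | hsmall
  · obtain ⟨p, hp, q, hq, hpq, h0, h1⟩ := exists_close P hP (by omega)
    obtain ⟨r, hr, hpr, hqr⟩ := third P p q h3
    refine ⟨p, hp, q, hq, r, hr, hpq, hpr, hqr, ?_⟩
    refine (area_le_of_close (hP p hp) (hP r hr) h0 h1).trans ?_
    rw [div_le_div_iff₀ hsn (by positivity)]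
    have : (P.card : ℝ) ≤ 320 * D := by linarith
    nlinarith
  · obtain ⟨S, hSP, hS, hSc⟩ := central hD
    have hn4 : (P.card : ℝ) / 4 ≤ S.card := by linarith
    have hS2 : 2 ≤ S.card := by
      have h1 : (2 : ℝ) ≤ S.card := by linarith
      exact_mod_cast h1
    obtain ⟨p, hp, q, hq, hpq, h0, h1⟩ := exists_close S (fun x hx => hP x (hSP hx)) hS2
    have hS0 : (0 : ℝ) < S.card := by
      have : 0 < S.card := by omega
      exact_mod_cast this
    have hroot : 2 / Real.sqrt S.card ≤ 4 / Real.sqrt P.card := by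
      rw [div_le_div_iff₀ (Real.sqrt_pos.mpr hS0) hsn]
      have : Real.sqrt P.card ≤ 2 * Real.sqrt S.card := by
        rw [Real.sqrt_le_left (by positivity), mul_pow, Real.sq_sqrt hS0.le]
        linarith
      linarith
    have h0' := h0.trans hroot
    have h1' := h1.trans hroot
    set u := q 0 - p 0 with hu
    set v := q 1 - p 1 with hv
    set l := Real.sqrt (u ^ 2 + v ^ 2) with hl
    have huv : 0 < u ^ 2 + v ^ 2 := by
      rcases lt_or_eq_of_le (by positivity : 0 ≤ u ^ 2 + v ^ 2) with h | h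
      · exact h
      · exfalso
        apply hpq
        have hu0 : u = 0 := by nlinarith [sq_nonneg u, sq_nonneg v]
        have hv0 : v = 0 := by nlinarith [sq_nonneg u, sq_nonneg v]
        funext i
        fin_cases i
        · simp only [Fin.zero_eta]; linarith
        · simp only [Fin.mk_one]; linarith
    have hl0 : 0 < l := Real.sqrt_pos.mpr huv
    have hl2 : l ^ 2 = u ^ 2 + v ^ 2 := Real.sq_sqrt huv.le
    have hle : l ≤ |u| + |v| := by
      rw [hl, Real.sqrt_le_left (by positivity)]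
      nlinarith [abs_nonneg u, abs_nonneg v, sq_abs u, sq_abs v,
        mul_nonneg (abs_nonneg u) (abs_nonneg v)]
    set w := 20 * D / P.card with hw
    have hw0 : 0 ≤ w := by positivity
    have hw1 : w ≤ 1 / 16 := by
      rw [hw, div_le_iff₀ hn]; linarith
    obtain ⟨T, hTP, hT, hTc⟩ := strip hD p (hS p hp) (u / l) (v / l) (by
      rw [div_pow, div_pow, ← add_div, ← hl2, div_self (by positivity)]) w hw0 hw1
    have hT3 : 3 ≤ T.card := by
      have e : (P.card : ℝ) * (w / 4) = 5 * D := by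
        rw [hw]; field_simp; norm_num
      rw [e] at hTc
      have : (3 : ℝ) ≤ T.card := by linarith
      exact_mod_cast this
    obtain ⟨r, hr, hpr, hqr⟩ := third T p q hT3
    refine ⟨p, hSP hp, q, hSP hq, r, hTP hr, hpq, hpr, hqr, ?_⟩
    have ha : area p q r = l * |u / l * (r 1 - p 1) - v / l * (r 0 - p 0)| / 2 := by
      unfold area
      rw [← hu, ← hv]
      congr 1
      rw [← abs_of_pos hl0, ← abs_mul, abs_of_pos hl0]
      congr 1
      field_simp
    rw [ha]
    have hTr := hT r hr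
    have hl3 : l ≤ 8 / Real.sqrt P.card := by
      have : (8 : ℝ) / Real.sqrt P.card = 4 / Real.sqrt P.card + 4 / Real.sqrt P.card := by ring
      linarith
    have hfin : l * |u / l * (r 1 - p 1) - v / l * (r 0 - p 0)| ≤ 8 / Real.sqrt P.card * w :=
      mul_le_mul hl3 hTr (abs_nonneg _) (by positivity)
    have e2 : 8 / Real.sqrt P.card * w = 160 * D / (P.card * Real.sqrt P.card) := by
      rw [hw]; field_simp; norm_num
    have e3 : 160 * D / (P.card * Real.sqrt P.card) ≤ 640 * D / (P.card * Real.sqrt P.card) := by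
      apply div_le_div_of_nonneg_right _ (by positivity)
      linarith
    have e4 : 0 ≤ 160 * D / (P.card * Real.sqrt P.card) := by positivity
    linarith

end Vale.Agent.P036
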